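import Vale.Agent.P013.Main

/-!
# P013: a power saving in the Jacobsthal bound away from primorial-like moduli
-/

namespace Vale.Agent.Results.P013.PowerSaving

open Finset

/-- If the prime factors of `n` are thin in some range `(k ^ a, k ^ b]`, `k = ω n`, in particular if
`n / φ n` is bounded, then any interval of `C * k ^ (2 - η)` integers holds one prime to `n`. -/
theorem result :
    (∀ a b ε : ℝ, 0 < a → a < b → b ≤ 1 → 0 < ε →
      ∃ η : ℝ, 0 < η ∧ ∃ C : ℝ, ∀ n : ℕ, 1 < n →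
        (∑ p ∈ n.primeFactors.filter (fun p : ℕ =>
            (n.primeFactors.card : ℝ) ^ a < p ∧ (p : ℝ) ≤ (n.primeFactors.card : ℝ) ^ b),
            (1 : ℝ) / p) ≤ Real.log (b / a) - ε →
        ∀ (x : ℤ) (L : ℕ), C * (n.primeFactors.card : ℝ) ^ (2 - η) ≤ L →
          ∃ m : ℤ, x ≤ m ∧ m < x + L ∧ Int.gcd m n = 1) ∧
    (∀ ε : ℝ, 0 < ε →
      ∃ η : ℝ, 0 < η ∧ ∃ C : ℝ, ∀ n : ℕ, 1 < n → ε * n ≤ (Nat.totient n : ℝ) →
        ∀ (x : ℤ) (L : ℕ), C * (n.primeFactors.card : ℝ) ^ (2 - η) ≤ L →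
          ∃ m : ℤ, x ≤ m ∧ m < x + L ∧ Int.gcd m n = 1) :=
  ⟨Vale.Agent.P013.window_bound, Vale.Agent.P013.totient_bound⟩

end Vale.Agent.Results.P013.PowerSaving
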