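import Vale.Agent.P013.ThinRange

/-!
# P013: bounds near `k` when the prime factors just below `k` are thin
-/

namespace Vale.Agent.Results.P013.ThinTopRange

open Finset

/-- With `k = ω n`: if the prime factors of `n` in `(exp (c log k / log log k), k]` have reciprocal
sum at most `1 - δ`, any interval of `C k min (n / φ n) (log 2k)` integers holds one prime to `n`;
if those in `(k ^ θ, k]` have reciprocal sum at most `τ`, so does any of `C k ^ (2 θ + ε)`. -/
theorem result :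
    (∀ δ : ℝ, 0 < δ → ∃ c C : ℝ, 0 < c ∧ ∀ n : ℕ, 1 < n →
      (∑ p ∈ n.primeFactors.filter (fun p : ℕ =>
          Real.exp (c * Real.log n.primeFactors.card / Real.log (Real.log n.primeFactors.card))
              < (p : ℝ) ∧ p ≤ n.primeFactors.card), (1 : ℝ) / p) ≤ 1 - δ →
      ∀ (x : ℤ) (L : ℕ),
        C * n.primeFactors.card
            * min ((n : ℝ) / Nat.totient n) (Real.log (2 * n.primeFactors.card)) ≤ L →
        ∃ m : ℤ, x ≤ m ∧ m < x + L ∧ Int.gcd m n = 1) ∧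
    (∀ θ ε : ℝ, 1 / 2 ≤ θ → θ < 1 → 0 < ε → ∃ τ : ℝ, 0 < τ ∧ ∃ C : ℝ, ∀ n : ℕ, 1 < n →
      (∑ p ∈ n.primeFactors.filter (fun p : ℕ =>
          (n.primeFactors.card : ℝ) ^ θ < p ∧ p ≤ n.primeFactors.card), (1 : ℝ) / p) ≤ τ →
      ∀ (x : ℤ) (L : ℕ), C * (n.primeFactors.card : ℝ) ^ (2 * θ + ε) ≤ L →
        ∃ m : ℤ, x ≤ m ∧ m < x + L ∧ Int.gcd m n = 1) :=
  ⟨Vale.Agent.P013.thin_top, Vale.Agent.P013.thin_range⟩

end Vale.Agent.Results.P013.ThinTopRange
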